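import Vale.Agent.P038.K4.Defs

/-!
# P038: the class of oriented graphs generated by Horn relations
-/

universe u

namespace Vale.Agent.P038.Horn

/-- `x` is a second out-neighbour of `v`: not `v`, not an out-neighbour of `v`, and reached from `v`
by a path with two arcs. -/
def Second {V : Type*} (D : OGraph V) (v x : V) : Prop :=
  x ≠ v ∧ ¬ D.arc v x ∧ ∃ u, D.arc v u ∧ D.arc u x

/-- `x` is not reached from `v` by a path with zero, one or two arcs. -/
def Far {V : Type*} (D : OGraph V) (v x : V) : Prop :=
  x ≠ v ∧ ¬ D.arc v x ∧ ¬ Second D v x

/-- There are no two arcs `a → b`, `c → d` such that `d` is at distance at least three from `a`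
and `b` is at distance at least three from `c`. -/
def NoFarMatching {V : Type*} (D : OGraph V) : Prop :=
  ∀ a b c d, D.arc a b → D.arc c d → Far D a d → Far D c b → False

/-- The graph of the missing edges has no alternating four-cycle, that is, it is a threshold graph
(a generalised star): there are no four vertices with `a, c` and `b, d` not joined, `a, b` and
`c, d` joined. -/
def MissingThreshold {V : Type*} (D : OGraph V) : Prop :=
  ∀ a b c d, a ≠ c → b ≠ d → ¬ Joined D a c → ¬ Joined D b d → Joined D a b → ¬ Joined D c d

/-- There is a reflexive relation `R`, disjoint from the arcs, such that `x R y`, `u → y`, `u R v`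
imply that `x R v` or that `v` is a second out-neighbour of `x`. -/
def HornClosed {V : Type*} (D : OGraph V) : Prop :=
  ∃ R : V → V → Prop, (∀ x, R x x) ∧ (∀ x y, R x y → ¬ D.arc x y) ∧
    ∀ x y u v, R x y → D.arc u y → R u v → R x v ∨ Second D x v

/-- The oriented graph on `W` induced by a map `W → V` (used for inclusions of subsets). -/
def induced {V W : Type*} (D : OGraph V) (f : W → V) : OGraph W where
  arc a b := D.arc (f a) (f b)
  loopless a := D.loopless (f a)
  asymm a b := D.asymm (f a) (f b)

/-- The smallest class of oriented graphs that contains the graphs with a Horn relation and the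
graphs all of whose `K₄`s are a cyclic triangle dominating a vertex (for example those without
`K₄`), and that is closed under substitution and domination. -/
inductive Gen : {V : Type u} → OGraph V → Prop
  /-- a Horn relation -/
  | horn {V : Type u} (D : OGraph V) (h : HornClosed D) : Gen D
  /-- no `K₄`, or only `K₄`s of the form cyclic triangle and common out-neighbour -/
  | k4 {V : Type u} (D : OGraph V) (h : K4.OnlySinkK4 D) : Gen D
  /-- substitution of oriented graphs for the vertices of an oriented graph `E` -/
  | subst {V Q : Type u} (D : OGraph V) (E : OGraph Q) (π : V → Q) (hπ : Function.Surjective π)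
      (harc : ∀ u v, π u ≠ π v → (D.arc u v ↔ E.arc (π u) (π v))) (hE : Gen E)
      (hF : ∀ q, Gen (induced D (Subtype.val : {x // π x = q} → V))) : Gen D
  /-- domination: a nonempty `D'`, whose vertices are among those of `D`, such that for each vertex
  `v` of `D'` some vertex `v'` of `D` has `N₁(v') ⊆ N₁'(v)` and `N₂'(v) ⊆ N₂(v')` -/
  | dom {V V' : Type u} [Nonempty V'] (D : OGraph V) (D' : OGraph V') (f : V' → V)
      (hf : Function.Injective f)
      (h : ∀ v : V', ∃ v' : V, (∀ x, D.arc v' x → ∃ y, f y = x ∧ D'.arc v y) ∧
        ∀ y, Second D' v y → Second D v' (f y)) (h' : Gen D') : Gen D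

end Vale.Agent.P038.Horn
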