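import Vale.Agent.P038.Horn.Gen
import Vale.Agent.P038.Horn.Defs

/-!
# P038: the weighted conjecture for the class generated by Horn relations
-/

set_option linter.all false

universe u

namespace Vale.Agent.P038.Horn

open Vale.Agent.P038 Vale.Agent.P038.K4 Vale.Agent.P038.K4.Sub

theorem second_iff {V : Type*} (D : OGraph V) (v x : V) : Second D v x ↔ Sec D v x := Iff.rfl

theorem induced_eq {V W : Type*} (D : OGraph V) (f : W → V) : induced D f = pull D f := rfl

theorem wsnc_of_hornClosed {V : Type*} [Fintype V] [Nonempty V] (D : OGraph V)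
    (h : HornClosed D) : WSNC D := by
  obtain ⟨R, h1, h2, h3⟩ := h
  exact wsnc_of_horn D R h1 h2 h3

/-- If no far matching, the relation `far or equal` is a Horn relation. -/
theorem NoFarMatching.hornClosed {V : Type*} (D : OGraph V) (h : NoFarMatching D) :
    HornClosed D := by
  refine ⟨fun x y => x = y ∨ Far D x y, fun x => Or.inl rfl, ?_, ?_⟩
  · rintro x y (rfl | h1)
    · exact D.loopless x
    · exact h1.2.1
  · rintro x y u v h1 h2 h3
    by_contra hcon
    push Not at hcon
    obtain ⟨⟨h4, h5⟩, h6⟩ := hcon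
    have h7 : D.arc x v := by
      by_contra h7
      exact h5 ⟨fun e => h4 e.symm, h7, h6⟩
    rcases h1 with rfl | h1
    · rcases h3 with rfl | h3
      · exact D.asymm _ _ h7 h2
      · by_cases h8 : v = u
        · exact h3.1 h8
        · by_cases h9 : D.arc u v
          · exact h3.2.1 h9
          · exact h3.2.2 ⟨h8, h9, x, h2, h7⟩
    · rcases h3 with rfl | h3
      · by_cases h8 : y = x
        · exact h1.1 h8
        · by_cases h9 : D.arc x y
          · exact h1.2.1 h9
          · exact h1.2.2 ⟨h8, h9, u, h7, h2⟩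
      · exact h x v u y h7 h2 h1 h3

theorem MissingThreshold.noFarMatching {V : Type*} (D : OGraph V) (h : MissingThreshold D) :
    NoFarMatching D := by
  intro a b c d hab hcd had hcb
  have hac : a ≠ c := by
    rintro rfl
    exact had.2.1 hcd
  have hbd : b ≠ d := by
    rintro rfl
    exact had.2.1 hab
  refine h a b c d hac hbd ?_ ?_ (Or.inl hab) (Or.inl hcd)
  · rintro (h1 | h1)
    · exact had.2.2 ⟨had.1, had.2.1, c, h1, hcd⟩
    · exact hcb.2.2 ⟨hcb.1, hcb.2.1, a, h1, hab⟩
  · rintro (h1 | h1)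
    · exact had.2.2 ⟨had.1, had.2.1, b, hab, h1⟩
    · exact hcb.2.2 ⟨hcb.1, hcb.2.1, d, hcd, h1⟩

theorem sum_comp_N1_ge {V V' : Type*} [Fintype V] [Fintype V'] (D : OGraph V) (D' : OGraph V')
    (f : V' → V) (hf : Function.Injective f) (w : V → ℝ) (hw : ∀ v, 0 ≤ w v) (v : V') (v' : V)
    (h : ∀ x, D.arc v' x → ∃ y, f y = x ∧ D'.arc v y) :
    ∑ x ∈ N1 D v', w x ≤ ∑ y ∈ N1 D' v, w (f y) := by
  classical
  rw [← Finset.sum_image (f := w) (g := f) (s := N1 D' v) (fun a _ b _ e => hf e)]
  refine Finset.sum_le_sum_of_subset_of_nonneg ?_ fun x _ _ => hw x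
  intro x hx
  obtain ⟨y, hy1, hy2⟩ := h x (mem_N1.1 hx)
  exact Finset.mem_image.2 ⟨y, mem_N1.2 hy2, hy1⟩

theorem sum_comp_N2_le {V V' : Type*} [Fintype V] [Fintype V'] (D : OGraph V) (D' : OGraph V')
    (f : V' → V) (hf : Function.Injective f) (w : V → ℝ) (hw : ∀ v, 0 ≤ w v) (v : V') (v' : V)
    (h : ∀ y, Second D' v y → Second D v' (f y)) :
    ∑ y ∈ N2 D' v, w (f y) ≤ ∑ x ∈ N2 D v', w x := by
  classical
  rw [← Finset.sum_image (f := w) (g := f) (s := N2 D' v) (fun a _ b _ e => hf e)]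
  refine Finset.sum_le_sum_of_subset_of_nonneg ?_ fun x _ _ => hw x
  intro x hx
  obtain ⟨y, hy1, hy2⟩ := Finset.mem_image.1 hx
  rw [← hy2]
  exact mem_N2.2 (h y (mem_N2.1 hy1))

theorem wsnc_dom {V V' : Type*} [Fintype V] [Fintype V'] (D : OGraph V) (D' : OGraph V')
    (f : V' → V) (hf : Function.Injective f)
    (h : ∀ v : V', ∃ v' : V, (∀ x, D.arc v' x → ∃ y, f y = x ∧ D'.arc v y) ∧
        ∀ y, Second D' v y → Second D v' (f y)) (h' : WSNC D') : WSNC D := by
  intro w hw
  obtain ⟨v, hv⟩ := h' (fun y => w (f y)) (fun y => hw _)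
  obtain ⟨v', h1, h2⟩ := h v
  exact ⟨v', (sum_comp_N1_ge D D' f hf w hw v v' h1).trans
    (hv.trans (sum_comp_N2_le D D' f hf w hw v v' h2))⟩

theorem Gen.wsnc
    (hP : ∀ {V : Type u} [Fintype V] [Nonempty V] (D : OGraph V), OnlySinkK4 D → WSNC D)
    {V : Type u} {D : OGraph V} (h : Gen D) : ∀ [Fintype V] [Nonempty V], WSNC D := by
  induction h with
  | horn D h =>
    intro _ _
    exact wsnc_of_hornClosed D h
  | k4 D h =>
    intro _ _
    exact hP D h
  | @subst V Q D E π hπ harc hE hF ihE ihF =>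
    intro _ _
    classical
    haveI : Finite Q := Finite.of_surjective π hπ
    haveI : Fintype Q := Fintype.ofFinite Q
    haveI : Nonempty Q := Nonempty.map π ‹Nonempty V›
    haveI : ∀ q, Fintype {x // π x = q} := fun q => Fintype.ofFinite _
    refine wsnc_subst D E π hπ harc ihE fun q => ?_
    haveI : Nonempty {x // π x = q} := by
      obtain ⟨x, hx⟩ := hπ q
      exact ⟨⟨x, hx⟩⟩
    exact ihF q
  | @dom V V' _ D D' f hf h h' ih =>
    intro _ _
    haveI : Finite V' := Finite.of_injective f hf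
    haveI : Fintype V' := Fintype.ofFinite V'
    exact wsnc_dom D D' f hf h ih

theorem Gen.card_subst
    (hP : ∀ {V : Type u} [Fintype V] [Nonempty V] (D : OGraph V), OnlySinkK4 D → WSNC D)
    {V Q : Type u} [Fintype V] [Nonempty V] (D : OGraph V) (E : OGraph Q) (π : V → Q)
    [∀ q, Fintype {x // π x = q}] (hπ : Function.Surjective π)
    (harc : ∀ u v, π u ≠ π v → (D.arc u v ↔ E.arc (π u) (π v))) (hE : Gen E)
    (hF : ∀ q, ∃ v, (N1 (induced D (Subtype.val : {x // π x = q} → V)) v).card ≤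
      (N2 (induced D (Subtype.val : {x // π x = q} → V)) v).card) :
    ∃ v, (N1 D v).card ≤ (N2 D v).card := by
  classical
  haveI : Finite Q := Finite.of_surjective π hπ
  haveI : Fintype Q := Fintype.ofFinite Q
  haveI : Nonempty Q := Nonempty.map π ‹Nonempty V›
  obtain ⟨v, hv⟩ := snc_subst D E π hπ harc (hE.wsnc hP) (fun _ => 1) (fun _ => zero_le_one)
    (fun q => by
      obtain ⟨v, hv⟩ := hF q
      refine ⟨v, ?_⟩
      have h1 : (N1 (pull D (Subtype.val : {x // π x = q} → V)) v).card ≤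
        (N2 (pull D (Subtype.val : {x // π x = q} → V)) v).card := hv
      simpa using h1)
  exact ⟨v, by simpa using hv⟩

end Vale.Agent.P038.Horn
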