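import Vale.Agent.P038.K4.Sub.Subst
import Mathlib.Analysis.SpecialFunctions.Pow.Continuity
import Mathlib.Analysis.SpecialFunctions.Log.Basic
import Mathlib.Analysis.Convex.StdSimplex
import Mathlib.Topology.Order.Basic

/-!
# P038: equilibrium weights for a reflexive relation

Maximising `∏ p(R_x)^{w x}` over the simplex.
-/

set_option linter.all false

namespace Vale.Agent.P038.Horn

variable {V : Type*} [Fintype V]

open Classical in
/-- `p(R_x)`, the mass of the `r` with `R r x` -/
noncomputable def mass (R : V → V → Prop) (p : V → ℝ) (x : V) : ℝ :=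
  ∑ r, if R r x then p r else 0

theorem mass_nonneg (R : V → V → Prop) (p : V → ℝ) (hp : ∀ v, 0 ≤ p v) (x : V) :
    0 ≤ mass R p x := by
  classical
  refine Finset.sum_nonneg fun r _ => ?_
  split_ifs
  exacts [hp r, le_rfl]

theorem mass_ge (R : V → V → Prop) (hR : ∀ x, R x x) (p : V → ℝ) (hp : ∀ v, 0 ≤ p v) (x : V) :
    p x ≤ mass R p x := by
  classical
  have := Finset.single_le_sum (f := fun r => if R r x then p r else 0) (s := Finset.univ)
    (fun r _ => by
      show 0 ≤ if R r x then p r else 0
      split_ifs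
      exacts [hp r, le_rfl]) (Finset.mem_univ x)
  simpa [hR x, mass] using this

theorem mass_continuous (R : V → V → Prop) (x : V) : Continuous fun p : V → ℝ => mass R p x := by
  classical
  unfold mass
  refine continuous_finset_sum _ fun r _ => ?_
  split_ifs
  exacts [continuous_apply r, continuous_const]

theorem mass_lin (R : V → V → Prop) (p q : V → ℝ) (e : ℝ) (x : V) :
    mass R (fun v => p v + e * (q v - p v)) x = mass R p x + e * (mass R q x - mass R p x) := by
  classical
  unfold mass
  rw [← Finset.sum_sub_distrib, Finset.mul_sum, ← Finset.sum_add_distrib]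
  refine Finset.sum_congr rfl fun r _ => ?_
  split_ifs <;> ring

/-- the first order condition at a maximiser of `∏ p(R_x)^{w x}` -/
theorem exists_max [Nonempty V] (R : V → V → Prop) (hR : ∀ x, R x x) (w : V → ℝ)
    (hw : ∀ v, 0 ≤ w v) :
    ∃ p : V → ℝ, (∀ v, 0 ≤ p v) ∧ ∑ v, p v = 1 ∧ (∀ x, 0 < w x → 0 < mass R p x) ∧
      ∀ q : V → ℝ, (∀ v, 0 ≤ q v) → ∑ v, q v = 1 →
        ∑ x, w x / mass R p x * mass R q x ≤ ∑ x, w x := by
  classical
  let Φ : (V → ℝ) → ℝ := fun p => ∏ x, mass R p x ^ w x
  have hΦ : Continuous Φ := continuous_finset_prod _ fun x _ =>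
    (mass_continuous R x).rpow_const fun _ => Or.inr (hw x)
  obtain ⟨p, hp, hmax⟩ := (isCompact_stdSimplex ℝ V).exists_isMaxOn
    (⟨_, single_mem_stdSimplex ℝ (Classical.arbitrary V)⟩ : (stdSimplex ℝ V).Nonempty)
    hΦ.continuousOn
  have hpos : 0 < Φ p := by
    let c : V → ℝ := fun _ => (Fintype.card V : ℝ)⁻¹
    have hcard : (0 : ℝ) < Fintype.card V := by exact_mod_cast Fintype.card_pos
    have hc : c ∈ stdSimplex ℝ V := by
      refine ⟨fun v => (inv_pos.2 hcard).le, ?_⟩
      simp only [c, Finset.sum_const, Finset.card_univ, nsmul_eq_mul]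
      exact mul_inv_cancel₀ hcard.ne'
    have h1 : Φ c ≤ Φ p := hmax hc
    refine lt_of_lt_of_le (Finset.prod_pos fun x _ => ?_) h1
    exact Real.rpow_pos_of_pos
      (lt_of_lt_of_le (inv_pos.2 hcard) (mass_ge R hR c hc.1 x)) _
  have hmp : ∀ x, 0 < w x → 0 < mass R p x := by
    intro x hx
    by_contra h
    have h0 : mass R p x = 0 := le_antisymm (not_lt.1 h) (mass_nonneg R p hp.1 x)
    have : Φ p = 0 := Finset.prod_eq_zero (Finset.mem_univ x) (by
      rw [h0, Real.zero_rpow hx.ne'])
    exact hpos.ne' this
  refine ⟨p, hp.1, hp.2, hmp, fun q hq0 hq1 => ?_⟩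
  -- along the segment to `q`
  have key : ∀ e : ℝ, 0 < e → e < 1 →
      ∑ x, w x * ((mass R q x / mass R p x - 1) / (1 + e * (mass R q x / mass R p x - 1))) ≤ 0 := by
    intro e he0 he1
    let z : V → ℝ := fun v => p v + e * (q v - p v)
    have hz : z ∈ stdSimplex ℝ V := by
      refine ⟨fun v => ?_, ?_⟩
      · have : z v = (1 - e) * p v + e * q v := by simp only [z]; ring
        rw [this]
        have h1 := mul_nonneg (by linarith : (0:ℝ) ≤ 1 - e) (hp.1 v)
        have h2 := mul_nonneg he0.le (hq0 v)
        linarith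
      · simp only [z]
        rw [Finset.sum_add_distrib, ← Finset.mul_sum, Finset.sum_sub_distrib, hq1, hp.2]
        ring
    have hle : Φ z ≤ Φ p := hmax hz
    have hzm : ∀ x, mass R z x = mass R p x + e * (mass R q x - mass R p x) :=
      fun x => mass_lin R p q e x
    have hfac : ∀ x, 0 < w x → mass R z x =
        mass R p x * (1 + e * (mass R q x / mass R p x - 1)) := by
      intro x hx
      rw [hzm]
      have := (hmp x hx).ne'
      field_simp
    have hy : ∀ x, 0 < 1 + e * (mass R q x / mass R p x - 1) := by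
      intro x
      have h1 : 0 ≤ mass R q x / mass R p x :=
        div_nonneg (mass_nonneg R q hq0 x) (mass_nonneg R p hp.1 x)
      nlinarith
    have hprod : Φ z = Φ p * ∏ x, (1 + e * (mass R q x / mass R p x - 1)) ^ w x := by
      simp only [Φ]
      rw [← Finset.prod_mul_distrib]
      refine Finset.prod_congr rfl fun x _ => ?_
      rcases (hw x).eq_or_lt with h | h
      · rw [← h]; simp
      · rw [hfac x h, Real.mul_rpow (hmp x h).le (hy x).le]
    have hle1 : ∏ x, (1 + e * (mass R q x / mass R p x - 1)) ^ w x ≤ 1 := by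
      rw [hprod] at hle
      by_contra hcon
      push Not at hcon
      nlinarith
    have hlog : ∑ x, w x * Real.log (1 + e * (mass R q x / mass R p x - 1)) ≤ 0 := by
      have h1 : Real.log (∏ x, (1 + e * (mass R q x / mass R p x - 1)) ^ w x) ≤ 0 :=
        Real.log_nonpos (Finset.prod_nonneg fun x _ => Real.rpow_nonneg (hy x).le _) hle1
      rw [Real.log_prod (fun x _ => (Real.rpow_pos_of_pos (hy x) _).ne')] at h1
      refine le_trans (le_of_eq ?_) h1
      refine Finset.sum_congr rfl fun x _ => ?_
      rw [Real.log_rpow (hy x)]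
    have hlow : ∀ x, e * (w x * ((mass R q x / mass R p x - 1) /
        (1 + e * (mass R q x / mass R p x - 1)))) ≤
        w x * Real.log (1 + e * (mass R q x / mass R p x - 1)) := by
      intro x
      have h1 := Real.one_sub_inv_le_log_of_pos (hy x)
      have h2 : 1 - (1 + e * (mass R q x / mass R p x - 1))⁻¹ =
          e * ((mass R q x / mass R p x - 1) / (1 + e * (mass R q x / mass R p x - 1))) := by
        have := (hy x).ne'
        field_simp
        ring
      rw [h2] at h1
      calc _ = w x * (e * ((mass R q x / mass R p x - 1) /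
            (1 + e * (mass R q x / mass R p x - 1)))) := by ring
        _ ≤ _ := mul_le_mul_of_nonneg_left h1 (hw x)
    have hsum := le_trans (Finset.sum_le_sum fun x (_ : x ∈ Finset.univ) => hlow x) hlog
    rw [← Finset.mul_sum] at hsum
    by_contra hcon
    push Not at hcon
    nlinarith
  -- let `e` tend to `0`
  have hcont : ContinuousAt (fun e : ℝ => ∑ x, w x * ((mass R q x / mass R p x - 1) /
      (1 + e * (mass R q x / mass R p x - 1)))) 0 := by
    have hx : ∀ x : V, ContinuousAt (fun e : ℝ => w x * ((mass R q x / mass R p x - 1) /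
      (1 + e * (mass R q x / mass R p x - 1)))) 0 := by
      intro x
      refine ContinuousAt.mul continuousAt_const (ContinuousAt.div continuousAt_const ?_ (by simp))
      exact (continuous_const.add (continuous_id.mul continuous_const)).continuousAt
    exact tendsto_finset_sum _ fun x _ => hx x
  have hlim : ∑ x, w x * ((mass R q x / mass R p x - 1) /
      (1 + (0 : ℝ) * (mass R q x / mass R p x - 1))) ≤ 0 := by
    by_contra hcon
    push Not at hcon
    have h1 := hcont.eventually (lt_mem_nhds hcon)
    rw [Metric.eventually_nhds_iff] at h1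
    obtain ⟨δ, hδ, h2⟩ := h1
    have h3 : 0 < min (δ / 2) (1 / 2) := lt_min (by linarith) (by norm_num)
    have h4 := h2 (y := min (δ / 2) (1 / 2)) (by
      rw [Real.dist_eq, sub_zero, abs_of_pos h3]
      exact lt_of_le_of_lt (min_le_left _ _) (by linarith))
    have h5 := key _ h3 (lt_of_le_of_lt (min_le_right _ _) (by norm_num))
    linarith
  have hfin : ∑ x, (w x / mass R p x * mass R q x - w x) ≤ 0 := by
    refine le_trans (le_of_eq ?_) hlim
    refine Finset.sum_congr rfl fun x _ => ?_
    rw [zero_mul, add_zero, div_one]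
    ring
  rw [Finset.sum_sub_distrib] at hfin
  linarith

end Vale.Agent.P038.Horn
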