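import Vale.Agent.P038.Horn.Equi

/-!
# P038: the weighted conjecture from a Horn relation
-/

set_option linter.all false

namespace Vale.Agent.P038.Horn

open Vale.Agent.P038 Vale.Agent.P038.K4.Sub

variable {V : Type*} [Fintype V]

open Classical in
/-- `1` on arcs, `-1` on second neighbours -/
noncomputable def mm (D : OGraph V) (r y : V) : ℝ :=
  (if D.arc r y then 1 else 0) - (if Sec D r y then 1 else 0)

theorem mm_le_one (D : OGraph V) (r y : V) : mm D r y ≤ 1 := by
  classical
  unfold mm
  split_ifs <;> norm_num

theorem mm_nonpos (D : OGraph V) (r y : V) (h : ¬ D.arc r y) : mm D r y ≤ 0 := by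
  classical
  unfold mm
  rw [if_neg h]
  split_ifs <;> norm_num

theorem mm_sec (D : OGraph V) (r y : V) (h : Sec D r y) : mm D r y = -1 := by
  classical
  unfold mm
  rw [if_neg h.2.1, if_pos h]
  norm_num

theorem sum_mm (D : OGraph V) (w : V → ℝ) (r : V) :
    ∑ y, mm D r y * w y = ∑ x ∈ N1 D r, w x - ∑ x ∈ N2 D r, w x := by
  classical
  rw [sum_N1, sum_N2, ← Finset.sum_sub_distrib]
  refine Finset.sum_congr rfl fun y _ => ?_
  unfold mm
  split_ifs <;> ring

theorem wsnc_of_horn [Nonempty V] (D : OGraph V) (R : V → V → Prop) (hR : ∀ x, R x x)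
    (hA : ∀ x y, R x y → ¬ D.arc x y)
    (hH : ∀ x y u v, R x y → D.arc u y → R u v → R x v ∨ Sec D x v) : WSNC D := by
  classical
  intro w hw
  obtain ⟨p, hp0, hp1, hmp, hopt⟩ := exists_max R hR w hw
  set β : V → ℝ := fun x => w x / mass R p x with hβ
  have hβ0 : ∀ x, 0 ≤ β x := fun x => div_nonneg (hw x) (mass_nonneg R p hp0 x)
  have hb : ∀ x, w x = β x * mass R p x := by
    intro x
    rcases (hw x).eq_or_lt with h | h
    · simp only [hβ]
      rw [← h]
      simp
    · simp only [hβ]
      rw [div_mul_cancel₀ _ (hmp x h).ne']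
  set B : V → ℝ := fun r => ∑ x, if R r x then β x else 0 with hBdef
  have hB : ∀ r, B r ≤ ∑ x, w x := by
    intro r
    have h1 := hopt (Pi.single r 1) (fun v => by
      by_cases h : v = r
      · subst h; simp
      · simp [Pi.single_apply, h]) (by simp)
    refine le_trans (le_of_eq ?_) h1
    simp only [hBdef]
    refine Finset.sum_congr rfl fun x _ => ?_
    have : mass R (Pi.single r 1) x = if R r x then 1 else 0 := by
      unfold mass
      rw [Finset.sum_eq_single r]
      · simp
      · intro b _ hb'
        simp [Pi.single_apply, hb']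
      · intro h; exact absurd (Finset.mem_univ r) h
    rw [this]
    split_ifs <;> simp [hβ]
  have hsumB : ∑ r, p r * B r = ∑ x, w x := by
    have h1 : ∀ x, w x = ∑ r, if R r x then p r * β x else 0 := by
      intro x
      rw [hb x]
      unfold mass
      rw [Finset.mul_sum]
      refine Finset.sum_congr rfl fun r _ => ?_
      split_ifs <;> ring
    calc ∑ r, p r * B r = ∑ r, ∑ x, (if R r x then p r * β x else 0) := by
          refine Finset.sum_congr rfl fun r _ => ?_
          simp only [hBdef]
          rw [Finset.mul_sum]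
          refine Finset.sum_congr rfl fun x _ => ?_
          split_ifs <;> ring
      _ = ∑ x, ∑ r, (if R r x then p r * β x else 0) := Finset.sum_comm
      _ = ∑ x, w x := Finset.sum_congr rfl fun x _ => (h1 x).symm
  have hBeq : ∀ r, 0 < p r → B r = ∑ x, w x := by
    have h1 : ∑ r, p r * ((∑ x, w x) - B r) = 0 := by
      have : ∀ r, p r * ((∑ x, w x) - B r) = p r * (∑ x, w x) - p r * B r := fun r => by ring
      simp only [this]
      rw [Finset.sum_sub_distrib, ← Finset.sum_mul, hp1, hsumB]
      ring
    intro r hr
    have h2 := (Finset.sum_eq_zero_iff_of_nonneg (fun r _ =>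
      mul_nonneg (hp0 r) (sub_nonneg.2 (hB r)))).1 h1 r (Finset.mem_univ r)
    rcases mul_eq_zero.1 h2 with h3 | h3
    · exact absurd h3 hr.ne'
    · linarith
  set S : V → V → ℝ := fun r t => ∑ y, if R t y then β y * mm D r y else 0 with hS
  have hcase : ∀ r t, 0 < p r → 0 < p t → (∃ y, R t y ∧ D.arc r y) → S r t + S t r ≤ 0 := by
    intro r t hr ht ⟨y0, hy1, hy2⟩
    have h1 : S r t + S t r ≤ B t - B r := by
      simp only [hS, hBdef]
      rw [← Finset.sum_add_distrib, ← Finset.sum_sub_distrib]
      refine Finset.sum_le_sum fun y _ => ?_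
      by_cases h2 : R t y
      · by_cases h3 : R r y
        · have h4 := mm_nonpos D r y (hA r y h3)
          have h5 := mm_nonpos D t y (hA t y h2)
          simp only [h2, h3, if_true]
          nlinarith [hβ0 y]
        · have h4 := mm_le_one D r y
          simp only [h2, h3, if_true, if_false]
          nlinarith [hβ0 y]
      · by_cases h3 : R r y
        · have h4 : Sec D t y := (hH t y0 r y hy1 hy2 h3).resolve_left h2
          simp only [h2, h3, if_true, if_false, mm_sec D t y h4]
          linarith
        · simp [h2, h3]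
    rw [hBeq r hr, hBeq t ht] at h1
    linarith
  have hall : ∀ r t, 0 < p r → 0 < p t → S r t + S t r ≤ 0 := by
    intro r t hr ht
    by_cases h1 : ∃ y, R t y ∧ D.arc r y
    · exact hcase r t hr ht h1
    by_cases h2 : ∃ y, R r y ∧ D.arc t y
    · have := hcase t r ht hr h2
      linarith
    push Not at h1 h2
    have h3 : S r t ≤ 0 := by
      simp only [hS]
      refine Finset.sum_nonpos fun y _ => ?_
      split_ifs with h
      · exact mul_nonpos_of_nonneg_of_nonpos (hβ0 y) (mm_nonpos D r y (h1 y h))
      · exact le_rfl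
    have h4 : S t r ≤ 0 := by
      simp only [hS]
      refine Finset.sum_nonpos fun y _ => ?_
      split_ifs with h
      · exact mul_nonpos_of_nonneg_of_nonpos (hβ0 y) (mm_nonpos D t y (h2 y h))
      · exact le_rfl
    linarith
  have hform : ∑ r, p r * ∑ y, mm D r y * w y = ∑ r, ∑ t, p r * p t * S r t := by
    refine Finset.sum_congr rfl fun r _ => ?_
    have h1 : ∀ y, mm D r y * w y = ∑ t, p t * (if R t y then β y * mm D r y else 0) := by
      intro y
      rw [hb y]
      unfold mass
      rw [Finset.mul_sum, Finset.mul_sum]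
      refine Finset.sum_congr rfl fun t _ => ?_
      split_ifs <;> ring
    calc p r * ∑ y, mm D r y * w y
        = p r * ∑ y, ∑ t, p t * (if R t y then β y * mm D r y else 0) := by
          rw [Finset.sum_congr rfl fun y _ => h1 y]
      _ = p r * ∑ t, ∑ y, p t * (if R t y then β y * mm D r y else 0) := by
          rw [Finset.sum_comm]
      _ = ∑ t, p r * p t * S r t := by
          rw [Finset.mul_sum]
          refine Finset.sum_congr rfl fun t _ => ?_
          simp only [hS]
          rw [← Finset.mul_sum]
          ring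
  have htot : ∑ r, p r * ∑ y, mm D r y * w y ≤ 0 := by
    have h1 : ∑ r, ∑ t, p r * p t * S r t + ∑ r, ∑ t, p r * p t * S r t ≤ 0 := by
      have h2 : ∑ r, ∑ t, p r * p t * S r t = ∑ r, ∑ t, p r * p t * S t r := by
        rw [Finset.sum_comm]
        refine Finset.sum_congr rfl fun r _ => Finset.sum_congr rfl fun t _ => ?_
        ring
      calc _ = ∑ r, ∑ t, p r * p t * S r t + ∑ r, ∑ t, p r * p t * S t r := by rw [← h2]
        _ = ∑ r, ∑ t, p r * p t * (S r t + S t r) := by
            rw [← Finset.sum_add_distrib]
            refine Finset.sum_congr rfl fun r _ => ?_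
            rw [← Finset.sum_add_distrib]
            refine Finset.sum_congr rfl fun t _ => ?_
            ring
        _ ≤ 0 := by
            refine Finset.sum_nonpos fun r _ => Finset.sum_nonpos fun t _ => ?_
            rcases (hp0 r).eq_or_lt with h | hr
            · rw [← h]; simp
            rcases (hp0 t).eq_or_lt with h | ht
            · rw [← h]; simp
            exact mul_nonpos_of_nonneg_of_nonpos (mul_nonneg hr.le ht.le) (hall r t hr ht)
    rw [hform]
    linarith
  by_contra hcon
  push Not at hcon
  have hposr : ∀ r, 0 < ∑ y, mm D r y * w y := by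
    intro r
    rw [sum_mm]
    linarith [hcon r]
  have h1 : ∃ r, 0 < p r := by
    by_contra h
    push Not at h
    have : ∑ r, p r ≤ 0 := Finset.sum_nonpos fun r _ => h r
    linarith
  obtain ⟨r, hr⟩ := h1
  have h2 : 0 < ∑ r, p r * ∑ y, mm D r y * w y :=
    Finset.sum_pos' (fun r _ => mul_nonneg (hp0 r) (hposr r).le)
      ⟨r, Finset.mem_univ r, mul_pos hr (hposr r)⟩
  linarith

end Vale.Agent.P038.Horn
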